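import Vale.Agent.P125.Pos.Main

namespace Vale.Agent.Results.P125.MarkovTypeSmooth

open Vale.Agent.P125.Pos

universe u

theorem result (X : Type u) [NormedAddCommGroup X] [NormedSpace ℝ X] [CompleteSpace X] (p : ℝ)
    (hp : 1 < p) (h : MarkovType X p) : UniformlySmoothRenorm X :=
  renorm_of_markovType hp h

end Vale.Agent.Results.P125.MarkovTypeSmooth
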