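import Vale.Agent.P125.SumOp
import Vale.Agent.P125.Defs

namespace Vale.Agent.Results.P125.SummingOperator

open Vale.Agent.P125
open scoped ENNReal

theorem result :
    ∃ T : lp (fun _ : ℕ => ℝ) 1 →L[ℝ] lp (fun _ : ℕ => ℝ) ⊤,
      SublinearMarkov T ∧ ¬ FactorsUniformlyConvex T := by
  refine ⟨sumOp, ⟨38, 2 - 1/18, by norm_num, ?_⟩, ?_⟩
  · intro S _ _ w P f t hw hP hrow hrev ht
    exact sumOp_markov ⟨w, P, hw, hP, hrow, hrev⟩ f t ht
  · rintro ⟨X, i₁, i₂, i₃, A, B, h⟩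
    exact sumOp_not_uniformConvex X A B h

end Vale.Agent.Results.P125.SummingOperator
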